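import Mathlib.Analysis.InnerProductSpace.Adjoint
import Mathlib.Analysis.Normed.Operator.Banach
import Mathlib.Topology.Algebra.Module.FiniteDimension

/-! A symmetric operator that is coercive on a subspace of finite codimension: its kernel has
finite dimension, and it is invertible as soon as it is injective. -/

set_option linter.all false

namespace Vale.Agent.P371W37

variable {W F : Type*} [NormedAddCommGroup W] [InnerProductSpace ℂ W] [CompleteSpace W]
  [NormedAddCommGroup F] [NormedSpace ℂ F] [FiniteDimensional ℂ F]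

theorem fin_of_inf_ker (E : W →ₗ[ℂ] F) (S : Submodule ℂ W) (h : ∀ u ∈ S, E u = 0 → u = 0) :
    FiniteDimensional ℂ S :=
  FiniteDimensional.of_injective (E.comp S.subtype) (by
    rw [injective_iff_map_eq_zero]
    exact fun u hu => Subtype.ext (h u.1 u.2 hu))

theorem ker_fin (T : W →L[ℂ] W) (E : W →ₗ[ℂ] F) {c : ℝ} (hc : 0 < c)
    (h : ∀ u, E u = 0 → c * ‖u‖ ^ 2 ≤ (inner ℂ u (T u)).re) : FiniteDimensional ℂ T.ker := by
  refine fin_of_inf_ker E _ fun u hu hE => ?_
  have h1 := h u hE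
  have h2 : T u = 0 := hu
  rw [h2, inner_zero_right, Complex.zero_re] at h1
  have h3 : ‖u‖ ^ 2 ≤ 0 := by
    by_contra h4
    nlinarith [mul_pos hc (not_le.1 h4)]
  exact norm_eq_zero.1 (pow_eq_zero_iff two_ne_zero |>.1 (le_antisymm h3 (sq_nonneg _)))

theorem range_closed (T : W →L[ℂ] W) (E : W →L[ℂ] F) {c : ℝ} (hc : 0 < c)
    (h : ∀ u, E u = 0 → c * ‖u‖ ^ 2 ≤ (inner ℂ u (T u)).re) :
    IsClosed (T.range : Set W) := by
  have hK : IsClosed (E.ker : Set W) := E.isClosed_ker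
  have := hK.completeSpace_coe
  have h1 : IsClosed (Set.range (T.comp E.ker.subtypeL)) := by
    refine (ContinuousLinearMap.antilipschitz_of_bound (T.comp E.ker.subtypeL)
      (K := ⟨c⁻¹, by positivity⟩) fun u => ?_).isClosed_range
      (T.comp E.ker.subtypeL).uniformContinuous
    have h2 := (h u.1 u.2).trans ((Complex.re_le_norm _).trans (norm_inner_le_norm _ _))
    change ‖u.1‖ ≤ c⁻¹ * ‖T u.1‖
    rcases (norm_nonneg u.1).eq_or_lt with h0 | h0
    · rw [← h0]; positivity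
    · rw [le_inv_mul_iff₀ hc]
      nlinarith
  have h3 : FiniteDimensional ℂ (E.kerᗮ : Submodule ℂ W) :=
    fin_of_inf_ker (E : W →ₗ[ℂ] F) _ fun u hu hE => (inner_self_eq_zero (𝕜 := ℂ)).1 (hu u hE)
  have h4 : T.range = (T.comp E.ker.subtypeL).range ⊔ E.kerᗮ.map (T : W →ₗ[ℂ] W) := by
    refine le_antisymm ?_ (sup_le ?_ ?_)
    · rintro _ ⟨u, rfl⟩
      obtain ⟨a, ha, b, hb, rfl⟩ := E.ker.exists_add_mem_mem_orthogonal u
      rw [map_add]
      exact Submodule.add_mem_sup ⟨⟨a, ha⟩, rfl⟩ ⟨b, hb, rfl⟩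
    · rintro _ ⟨u, rfl⟩
      exact ⟨u.1, rfl⟩
    · rintro _ ⟨u, -, rfl⟩
      exact ⟨u, rfl⟩
  rw [h4]
  exact Submodule.isClosed_sup_finiteDimensional _ _ h1

theorem isUnit_of_inj (T : W →L[ℂ] W) (hT : ∀ u v, inner ℂ (T u) v = inner ℂ u (T v))
    (E : W →L[ℂ] F) {c : ℝ} (hc : 0 < c)
    (h : ∀ u, E u = 0 → c * ‖u‖ ^ 2 ≤ (inner ℂ u (T u)).re) (hi : ∀ u, T u = 0 → u = 0) :
    IsUnit T := by
  rw [ContinuousLinearMap.isUnit_iff_bijective]
  refine ⟨(injective_iff_map_eq_zero T).2 hi, ?_⟩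
  have h1 := range_closed T E hc h
  have h2 : T.range = ⊤ := by
    rw [← h1.submodule_topologicalClosure_eq, Submodule.topologicalClosure_eq_top_iff,
      Submodule.eq_bot_iff]
    intro u hu
    refine hi u ((inner_self_eq_zero (𝕜 := ℂ)).1 ?_)
    rw [← hT]
    exact hu _ ⟨T u, rfl⟩
  exact LinearMap.range_eq_top.1 h2

end Vale.Agent.P371W37
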