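import Vale.Agent.P371EF.Form

/-! The potential part of the form is small on the functions of `H¹` that vanish at finitely many
well chosen points. -/

set_option linter.all false

namespace Vale.Agent.P371W37

open MeasureTheory Filter Topology Set
open Vale.Agent.P371 Vale.Agent.P371.G Vale.Agent.P371E Vale.Agent.P371EF

variable {m : ℕ} {f f' : ℝ → Vec m}

theorem hold_le (hf : IsH1 f f') {a : ℝ} (ha : 0 < a) {x y : ℝ} (h : y ≤ x) :
    ‖f x - f y‖ ≤ a * (x - y) + a⁻¹ * ∫ t, ‖f' t‖ ^ 2 := by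
  have h2 := integrable_norm_sq hf.memLp_deriv
  rw [hf.ftc y x]
  calc ‖∫ t in y..x, f' t‖ ≤ ∫ t in y..x, ‖f' t‖ :=
        intervalIntegral.norm_integral_le_integral_norm h
    _ ≤ ∫ t in y..x, (a + a⁻¹ * ‖f' t‖ ^ 2) := by
        refine intervalIntegral.integral_mono_on h (hf.intervalIntegrable_deriv y x).norm
          (intervalIntegrable_const.add (h2.intervalIntegrable.const_mul _)) fun t _ => ?_
        rw [← sub_le_iff_le_add', le_inv_mul_iff₀ ha]
        nlinarith [sq_nonneg (‖f' t‖ - a), mul_nonneg ha.le (norm_nonneg (f' t))]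
    _ = a * (x - y) + a⁻¹ * ∫ t in y..x, ‖f' t‖ ^ 2 := by
        rw [intervalIntegral.integral_add intervalIntegrable_const
          (h2.intervalIntegrable.const_mul _), intervalIntegral.integral_const_mul,
          intervalIntegral.integral_const, smul_eq_mul, mul_comm]
    _ ≤ _ := by
        gcongr
        rw [intervalIntegral.integral_of_le h]
        exact setIntegral_le_integral h2 (Eventually.of_forall fun x => by positivity)

theorem hold (hf : IsH1 f f') {a : ℝ} (ha : 0 < a) (x y : ℝ) :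
    ‖f x - f y‖ ≤ a * |x - y| + a⁻¹ * ∫ t, ‖f' t‖ ^ 2 := by
  rcases le_total y x with h | h
  · rw [abs_of_nonneg (sub_nonneg.2 h)]
    exact hold_le hf ha h
  · rw [norm_sub_rev, abs_sub_comm, abs_of_nonneg (sub_nonneg.2 h)]
    exact hold_le hf ha h

theorem near_zero (hf : IsH1 f f') {θ : ℝ} (hθ : 0 < θ) {x y : ℝ} (h : |x - y| ≤ θ ^ 2)
    (hy : f y = 0) : ‖f x‖ ≤ 2 * θ * √((∫ t, ‖f' t‖ ^ 2) + ∫ t, ‖f t‖ ^ 2) := by
  set T := ∫ t, ‖f' t‖ ^ 2 with hT
  set S := ∫ t, ‖f t‖ ^ 2 with hS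
  have hT0 : 0 ≤ T := integral_nonneg fun x => by positivity
  have hS0 : 0 ≤ S := integral_nonneg fun x => by positivity
  have hq : √(T + S) * √(T + S) = T + S := Real.mul_self_sqrt (by linarith)
  have hb : ‖f x‖ ≤ √(T + S) := Real.le_sqrt_of_sq_le (sup_sq_le hf x)
  set q := √(T + S)
  rcases (Real.sqrt_nonneg (T + S)).eq_or_lt with h0 | h0
  · have h0' : q = 0 := h0.symm
    rw [h0'] at hb ⊢
    simpa using hb
  · have h0' : 0 < q := h0
    have h1 := hold hf (div_pos h0' hθ) x y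
    rw [hy, sub_zero, ← hT] at h1
    have h2 : q / θ * |x - y| ≤ q / θ * θ ^ 2 := by gcongr
    have h3 : (q / θ)⁻¹ * T ≤ (q / θ)⁻¹ * (q * q) := by
      gcongr
      linarith
    have e1 : q / θ * θ ^ 2 = θ * q := by field_simp
    have e2 : (q / θ)⁻¹ * (q * q) = θ * q := by field_simp
    linarith

theorem tail {τ : ℝ → ℝ} (hτ : Integrable τ volume) {ε : ℝ} (hε : 0 < ε) :
    ∃ R : ℝ, ∫ x in (Icc (-R) R)ᶜ, τ x ≤ ε := by
  have h1 := tendsto_setIntegral_of_antitone (f := τ) (μ := volume)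
    (s := fun n : ℕ => (Icc (-(n : ℝ)) n)ᶜ) (fun n => measurableSet_Icc.compl)
    (fun a b hab => compl_subset_compl.2 (Icc_subset_Icc (neg_le_neg (Nat.cast_le.2 hab))
      (Nat.cast_le.2 hab))) ⟨0, hτ.integrableOn⟩
  have h2 : (⋂ n : ℕ, (Icc (-(n : ℝ)) n)ᶜ) = ∅ := by
    refine eq_empty_of_forall_notMem fun x hx => ?_
    obtain ⟨n, hn⟩ := exists_nat_ge |x|
    exact mem_iInter.1 hx n (abs_le.1 hn)
  rw [h2, Measure.restrict_empty, integral_zero_measure] at h1
  obtain ⟨n, hn⟩ := (h1.eventually (ge_mem_nhds hε)).exists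
  exact ⟨n, hn⟩

/-- For every `ε > 0` there are finitely many points such that the potential energy of every
function of `H¹` vanishing at these points is at most `ε` times its squared `H¹` norm. -/
theorem small {p : ℝ} (hp : 1 ≤ p) {W : ℝ → Mat m m} (hW : IsPotential p W) {ε : ℝ}
    (hε : 0 < ε) : ∃ s : Finset ℝ, ∀ f f' : ℝ → Vec m, IsH1 f f' → (∀ x ∈ s, f x = 0) →
      ‖∫ x, (inner ℂ (f x) (Matrix.toEuclideanLin (W x) (f x)) : ℂ)‖ ≤
        ε * ((∫ x, ‖f' x‖ ^ 2) + ∫ x, ‖f x‖ ^ 2) := by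
  set M : ℝ := ε / 3 / (m + 1) with hM
  have hM0 : 0 < M := by positivity
  have hM1 : m * M ≤ ε / 3 := by
    rw [hM, ← mul_div_assoc, div_le_iff₀ (by positivity)]
    nlinarith
  set c : ℝ := M ^ (1 - p) with hc
  have hc0 : 0 < c := Real.rpow_pos_of_pos hM0 _
  have hτ0 : ∀ x, 0 ≤ trPow p (W x) := fun x => trPow_nonneg' (hW.posSemidef x) p
  set I := ∫ x, trPow p (W x) with hI
  have hI0 : 0 ≤ I := integral_nonneg hτ0
  obtain ⟨R, hR⟩ := tail hW.integrable (show 0 < ε / 3 / c by positivity)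
  set θ : ℝ := √(ε / 3 / (4 * c * (I + 1))) with hθ
  have hθ0 : 0 < θ := Real.sqrt_pos.2 (by positivity)
  have hθ1 : θ ^ 2 = ε / 3 / (4 * c * (I + 1)) := Real.sq_sqrt (by positivity)
  obtain ⟨t, -, ht, hcov⟩ := (isCompact_Icc (a := -R) (b := R)).finite_cover_balls
    (show 0 < θ ^ 2 by positivity)
  refine ⟨ht.toFinset, fun f f' hf h0 => ?_⟩
  set T := ∫ t, ‖f' t‖ ^ 2 with hT
  set S := ∫ t, ‖f t‖ ^ 2 with hS
  have hT0 : 0 ≤ T := integral_nonneg fun x => by positivity
  have hS0 : 0 ≤ S := integral_nonneg fun x => by positivity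
  have hq : √(T + S) * √(T + S) = T + S := Real.mul_self_sqrt (by linarith)
  have hi := integrable_norm_sq hf.memLp
  have i1 := hi.const_mul (m * M)
  have i2 := hW.integrable.const_mul (c * (4 * θ ^ 2 * (T + S)))
  have i3 := (hW.integrable.indicator (measurableSet_Icc (a := -R) (b := R)).compl).const_mul
    (c * (T + S))
  have h1 : ‖∫ x, (inner ℂ (f x) (Matrix.toEuclideanLin (W x) (f x)) : ℂ)‖ ≤
      ∫ x, (m * M * ‖f x‖ ^ 2 + c * (4 * θ ^ 2 * (T + S)) * trPow p (W x) +
        c * (T + S) * (Icc (-R) R)ᶜ.indicator (fun x => trPow p (W x)) x) := by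
    refine norm_integral_le_of_norm_le ((i1.add i2).add i3) (Eventually.of_forall fun x => ?_)
    by_cases hx : x ∈ Icc (-R) R
    · obtain ⟨y, hy, hxy⟩ := mem_iUnion₂.1 (hcov hx)
      have hb := near_zero hf hθ0 (x := x) (y := y) (le_of_lt hxy) (h0 y (ht.mem_toFinset.2 hy))
      have := form_le hp hM0 (hW.posSemidef x) (f x) (f x) hb hb
      rw [indicator_of_notMem (not_not.2 hx), mul_zero, add_zero]
      refine this.trans (le_of_eq ?_)
      rw [← hT, ← hS, ← hc]
      linear_combination (c * 4 * θ ^ 2 * trPow p (W x)) * hq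
    · have hb : ‖f x‖ ≤ √(T + S) := Real.le_sqrt_of_sq_le (sup_sq_le hf x)
      have := form_le hp hM0 (hW.posSemidef x) (f x) (f x) hb hb
      rw [hq, ← sq, ← hc] at this
      rw [indicator_of_mem (mem_compl hx)]
      have h5 : 0 ≤ c * (4 * θ ^ 2 * (T + S)) * trPow p (W x) :=
        mul_nonneg (by positivity) (hτ0 x)
      linarith
  have i12 : Integrable (fun x => m * M * ‖f x‖ ^ 2 +
      c * (4 * θ ^ 2 * (T + S)) * trPow p (W x)) volume := i1.add i2
  rw [integral_add i12 i3, integral_add i1 i2, integral_const_mul, integral_const_mul,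
    integral_const_mul, integral_indicator measurableSet_Icc.compl, ← hS, ← hI] at h1
  have h2 : m * M * S ≤ ε / 3 * (T + S) := mul_le_mul hM1 (by linarith) hS0 (by positivity)
  have h3 : c * (4 * θ ^ 2 * (T + S)) * I ≤ ε / 3 * (T + S) := by
    have e : c * (4 * θ ^ 2 * (T + S)) * (I + 1) = ε / 3 * (T + S) := by
      rw [hθ1]; field_simp
    have : 0 ≤ c * (4 * θ ^ 2 * (T + S)) := by positivity
    nlinarith
  have h4 : c * (T + S) * ∫ x in (Icc (-R) R)ᶜ, trPow p (W x) ≤ ε / 3 * (T + S) := by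
    have e : c * (T + S) * (ε / 3 / c) = ε / 3 * (T + S) := by field_simp
    rw [← e]
    gcongr
  linarith

end Vale.Agent.P371W37
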