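import Mathlib.Analysis.InnerProductSpace.GramSchmidtOrtho
import Vale.Agent.P371W95.Defs

/-! The sum over the negative eigenvalues with multiplicity is the supremum over finite
orthonormal systems of eigenvectors. -/

set_option linter.all false

namespace Vale.Agent.P371W37

open Vale.Agent.P371W Set
open scoped ENNReal

variable {H : Type} [NormedAddCommGroup H] [InnerProductSpace ℂ H] {A : H →ₗ.[ℂ] H} {γ : ℝ}

/-- symmetry of an operator, on its graph -/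
def Sym (A : H →ₗ.[ℂ] H) : Prop :=
  ∀ p ∈ A.graph, ∀ q ∈ A.graph, inner ℂ p.2 q.1 = inner ℂ p.1 q.2

/-- the supremum over finite orthonormal systems of eigenvectors with negative eigenvalues -/
noncomputable def sys (γ : ℝ) (A : H →ₗ.[ℂ] H) : ℝ≥0∞ :=
  ⨆ (N : ℕ) (lam : Fin N → ℝ) (ψ : Fin N → H) (_ : ∀ j, lam j < 0 ∧ ψ j ∈ eig A (lam j))
    (_ : Orthonormal ℂ ψ), ∑ j, ENNReal.ofReal (|lam j| ^ γ)

theorem Sym.orth (hA : Sym A) {s t : ℝ} (hst : s ≠ t) {φ ψ : H} (hφ : φ ∈ eig A s)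
    (hψ : ψ ∈ eig A t) : inner ℂ φ ψ = 0 := by
  have h := hA _ hφ _ hψ
  simp only [inner_smul_left, inner_smul_right, Complex.conj_ofReal] at h
  have h2 : ((s : ℂ) - t) * inner ℂ φ ψ = 0 := by linear_combination h
  exact (mul_eq_zero.1 h2).resolve_left (sub_ne_zero.2 (by exact_mod_cast hst))

theorem card_le_mult {ι : Type} [Fintype ι] {t : ℝ} {ψ : ι → H} (ho : Orthonormal ℂ ψ)
    (h : ∀ j, ψ j ∈ eig A t) : (Fintype.card ι : ℕ∞) ≤ mult A t := by
  rw [mult, Cardinal.natCast_le_toENat, ← Cardinal.mk_fintype]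
  exact (LinearIndependent.of_comp (v := fun j => (⟨ψ j, h j⟩ : eig A t)) (eig A t).subtype
    ho.linearIndependent).cardinal_le_rank

theorem exists_on {t : ℝ} {n : ℕ} (h : (n : ℕ∞) ≤ mult A t) :
    ∃ ψ : Fin n → H, Orthonormal ℂ ψ ∧ ∀ j, ψ j ∈ eig A t := by
  rw [mult, Cardinal.natCast_le_toENat] at h
  obtain ⟨v, hv⟩ := exists_linearIndependent_of_le_rank h
  exact ⟨_, (InnerProductSpace.gramSchmidtNormed_orthonormal hv).comp_linearIsometry
    (eig A t).subtypeₗᵢ, fun j => Subtype.property _⟩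

theorem one_le_mult {t : ℝ} : 1 ≤ mult A t ↔ eig A t ≠ ⊥ := by
  rw [mult, Cardinal.one_le_toENat, Cardinal.one_le_iff_pos, rank_pos_iff_nontrivial,
    Submodule.nontrivial_iff_ne_bot]

theorem le_sys {ι : Type} [Fintype ι] {lam : ι → ℝ} {ψ : ι → H}
    (h : ∀ j, lam j < 0 ∧ ψ j ∈ eig A (lam j)) (ho : Orthonormal ℂ ψ) :
    ∑ j, ENNReal.ofReal (|lam j| ^ γ) ≤ sys γ A := by
  let e := (Fintype.equivFin ι).symm
  rw [← e.sum_comp]
  exact le_iSup_of_le _ (le_iSup_of_le (lam ∘ e) (le_iSup_of_le (ψ ∘ e) (le_iSup_of_le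
    (fun j => h (e j)) (le_iSup_of_le (ho.comp e e.injective) le_rfl))))

theorem sys_le : sys γ A ≤ trNeg γ A := by
  classical
  refine iSup_le fun N => iSup_le fun lam => iSup_le fun ψ => iSup_le fun h => iSup_le fun ho => ?_
  let g : Fin N → Iio (0 : ℝ) := fun j => ⟨lam j, (h j).1⟩
  rw [← Finset.sum_fiberwise_of_maps_to (t := Finset.univ.image g) (g := g)
    (fun j hj => Finset.mem_image_of_mem g hj)]
  refine le_trans (Finset.sum_le_sum fun t _ => ?_) (ENNReal.sum_le_tsum _)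
  have e : ∀ j ∈ Finset.univ.filter (fun j => g j = t),
      ENNReal.ofReal (|lam j| ^ γ) = ENNReal.ofReal (|t.1| ^ γ) := fun j hj => by
    rw [← (Finset.mem_filter.1 hj).2]
  rw [Finset.sum_congr rfl e, Finset.sum_const, nsmul_eq_mul]
  gcongr
  have h1 := card_le_mult (A := A) (t := t.1) (ψ := fun j : {j // g j = t} => ψ j.1)
    (ho.comp _ Subtype.val_injective) fun j => by
      have h2 := (h j.1).2
      have h3 : lam j.1 = t.1 := congrArg Subtype.val j.2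
      rwa [h3] at h2
  rw [Fintype.card_subtype] at h1
  exact_mod_cast ENat.toENNReal_le.2 h1

theorem sum_le_sys (hA : Sym A) (s : Finset (Iio (0 : ℝ))) (n : Iio (0 : ℝ) → ℕ)
    (hn : ∀ t ∈ s, (n t : ℕ∞) ≤ mult A t) :
    ∑ t ∈ s, (n t : ℝ≥0∞) * ENNReal.ofReal (|t.1| ^ γ) ≤ sys γ A := by
  choose ψ h1 h2 using fun t : s => exists_on (hn t.1 t.2)
  refine le_trans (le_of_eq ?_) (le_sys (ι := Σ t : s, Fin (n t.1)) (lam := fun j => j.1.1.1)
    (ψ := fun j => ψ j.1 j.2) (fun j => ⟨j.1.1.2, h2 j.1 j.2⟩) ⟨fun j => (h1 j.1).1 j.2, ?_⟩)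
  · rw [Fintype.sum_sigma, ← Finset.sum_coe_sort]
    simp only [Finset.sum_const, Finset.card_univ, Fintype.card_fin, nsmul_eq_mul]
  · rintro ⟨a, i⟩ ⟨b, j⟩ hne
    by_cases hab : a = b
    · subst hab
      exact (h1 a).2 fun e : i = j => hne (by rw [e])
    · exact hA.orth (fun e => hab (Subtype.ext (Subtype.ext e))) (h2 a i) (h2 b j)

theorem wt_ne (t : Iio (0 : ℝ)) : ENNReal.ofReal (|t.1| ^ γ) ≠ 0 :=
  (ENNReal.ofReal_pos.2 (Real.rpow_pos_of_pos (abs_pos.2 (ne_of_lt t.2)) _)).ne'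

theorem trNeg_eq (hA : Sym A) : trNeg γ A = sys γ A := by
  refine le_antisymm ?_ sys_le
  rw [trNeg, ENNReal.tsum_eq_iSup_sum]
  refine iSup_le fun s => ?_
  by_cases h : ∃ t ∈ s, mult A t = ⊤
  · obtain ⟨t, -, ht⟩ := h
    refine le_top.trans (le_of_eq ?_)
    rw [← ENNReal.top_mul (wt_ne (γ := γ) t), ← ENNReal.iSup_natCast, ENNReal.iSup_mul]
    refine le_antisymm (iSup_le fun k => ?_) ?_
    · simpa using sum_le_sys (γ := γ) hA {t} (fun _ => k) fun u hu => by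
        rw [Finset.mem_singleton.1 hu, ht]; exact le_top
    · rw [← ENNReal.iSup_mul, ENNReal.iSup_natCast, ENNReal.top_mul (wt_ne t)]
      exact le_top
  · refine le_trans (le_of_eq (Finset.sum_congr rfl fun t ht => ?_))
      (sum_le_sys hA s (fun t => (mult A t).toNat) fun t _ => ENat.coe_toNat_le_self _)
    have h1 : mult A t ≠ ⊤ := fun e => h ⟨t, ht, e⟩
    conv_lhs => rw [← ENat.coe_toNat h1]
    rw [ENat.toENNReal_coe]

theorem mult_lt_top (h : trNeg γ A ≠ ⊤) {t : ℝ} (ht : t < 0) : mult A t < ⊤ := by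
  rw [lt_top_iff_ne_top]
  intro e
  refine ENNReal.ne_top_of_tsum_ne_top h ⟨t, ht⟩ ?_
  change (mult A t : ℝ≥0∞) * _ = ⊤
  rw [e, ENat.toENNReal_top, ENNReal.top_mul (wt_ne ⟨t, ht⟩)]

theorem finite_eig (hγ : 0 ≤ γ) (h : trNeg γ A ≠ ⊤) {ε : ℝ} (hε : 0 < ε) :
    {t : ℝ | t ≤ -ε ∧ eig A t ≠ ⊥}.Finite := by
  have h1 := ENNReal.finite_const_le_of_tsum_ne_top h
    (ENNReal.ofReal_pos.2 (Real.rpow_pos_of_pos hε γ)).ne'
  refine (h1.image Subtype.val).subset fun t ht => ⟨⟨t, by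
    have := ht.1
    change t < 0
    linarith⟩, ?_, rfl⟩
  have h2 : (1 : ℝ≥0∞) ≤ (mult A t : ℝ≥0∞) := by
    exact_mod_cast ENat.toENNReal_le.2 (one_le_mult.2 ht.2)
  refine le_trans ?_ (le_mul_of_one_le_left' h2)
  refine ENNReal.ofReal_le_ofReal (Real.rpow_le_rpow hε.le ?_ hγ)
  have := ht.1
  exact le_abs.2 (Or.inr (by linarith))

theorem lowest_eq (hγ : 0 ≤ γ) (h : trNeg γ A ≠ ⊤) :
    lowest γ A = ⨆ (t : ℝ) (_ : t < 0 ∧ eig A t ≠ ⊥), ENNReal.ofReal (|t| ^ γ) := by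
  refine le_antisymm (iSup₂_le fun t ht => le_iSup₂_of_le t ht.1 le_rfl)
    (iSup₂_le fun t ht => ?_)
  obtain ⟨s, hs, hm⟩ := exists_min_image _ id (finite_eig hγ h (neg_pos.2 ht.1))
    ⟨t, (neg_neg t).ge, ht.2⟩
  have hst : s ≤ t := hs.1.trans_eq (neg_neg t)
  refine le_iSup₂_of_le s ⟨⟨hst.trans_lt ht.1, hs.2⟩, fun u hu => ?_⟩
    (ENNReal.ofReal_le_ofReal (Real.rpow_le_rpow (abs_nonneg _) ?_ hγ))
  · rcases le_total u t with h1 | h1
    · exact hm u ⟨h1.trans_eq (neg_neg t).symm, hu.2⟩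
    · exact hst.trans h1
  · rw [abs_of_neg ht.1, abs_of_neg (hst.trans_lt ht.1)]
    linarith

end Vale.Agent.P371W37
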